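import Vale.Agent.P134.Four

namespace Vale.Agent.Results.P134.CircleSymmetricFour

open InnerProductSpace Laplacian
open scoped RealInnerProductSpace

/-- In dimension four, a bounded monotone solution of the Allen-Cahn equation that is invariant
under the rotations of one horizontal coordinate plane is one-dimensional. -/
theorem result (u : EuclideanSpace ℝ (Fin 4) → ℝ) (hu : ContDiff ℝ 2 u)
    (hb : ∀ x, |u x| ≤ 1) (heq : ∀ x, (Δ u) x = u x ^ 3 - u x)
    (hmon : ∀ x, 0 < fderiv ℝ u x (EuclideanSpace.single (3 : Fin 4) (1 : ℝ)))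
    (hrot : ∀ (θ : ℝ) (x : EuclideanSpace ℝ (Fin 4)),
      u (!₂[Real.cos θ * x 0 - Real.sin θ * x 1,
        Real.sin θ * x 0 + Real.cos θ * x 1, x 2, x 3]) = u x) :
    ∃ e : EuclideanSpace ℝ (Fin 4), ‖e‖ = 1 ∧ ∃ h : ℝ → ℝ, ∀ x, u x = h ⟪e, x⟫ :=
  Vale.Agent.P134.one_dimensional_of_rotSymm hu hb heq hmon hrot

end Vale.Agent.Results.P134.CircleSymmetricFour
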